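import Vale.Agent.P011.E6O.Defs
import Vale.Agent.P011.E6O.H68.Split
import Vale.Agent.P011.E6I.Bas0

/-!
Block E6O, row BAS: the action of the similitudes of `D ⊗ Q`.
-/

open NumberField Matrix

namespace Vale.Agent.P011.E6O

open Vale.Agent.P011.MPQ Vale.Agent.P011.D4 Vale.Agent.P011.D4.Oct Vale.Agent.P011.E6
open Vale.Agent.P011.E6.Alb
open Vale.Agent.P011.E6I (MQ toMQ toMQ_apply toMQ_mul toMQ_one)

section gen

variable {k E : Type} [Field k] [Field E] [Algebra k E] {ρ σ : E ≃ₐ[k] E} {lam : Eˣ}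
  {g : Fin 3 → Eˣ} {a b c : kˣ}

/-- The inverse of the matrix `u`. -/
def wm (lam : Eˣ) : Matrix (Fin 3) (Fin 3) E :=
  !![0, 1, 0; 0, 0, 1; (lam : E), 0, 0]

theorem um_mul_wm : um lam * wm lam = 1 := by
  ext i j
  fin_cases i <;> fin_cases j <;> simp [um, wm, Matrix.mul_apply, Fin.sum_univ_three]

theorem wm_mul_um : wm lam * um lam = 1 := by
  ext i j
  fin_cases i <;> fin_cases j <;> simp [um, wm, Matrix.mul_apply, Fin.sum_univ_three]

theorem uq_mul_wq : (toMQ (um lam) : MQ E a b) * toMQ (wm lam) = 1 := by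
  rw [← toMQ_mul, um_mul_wm, toMQ_one]

theorem wq_mul_uq : (toMQ (wm lam) : MQ E a b) * toMQ (um lam) = 1 := by
  rw [← toMQ_mul, wm_mul_um, toMQ_one]

/-- The matrix `u`, as a unit. -/
def uU (lam : Eˣ) {a b : kˣ} : (MQ E a b)ˣ :=
  ⟨toMQ (um lam), toMQ (wm lam), uq_mul_wq, wq_mul_uq⟩

theorem uq_mul_apply (S : MQ E a b) (i j : Fin 3) :
    ((toMQ (um lam) : MQ E a b) * S) i j =
      (![((lam⁻¹ : Eˣ) : E) • S 2 j, S 0 j, S 1 j] : Fin 3 → Qt (up E a) (up E b)) i := by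
  have h0 : (((0 : E) : Qt (up E a) (up E b))) = 0 := rfl
  have h1 : (((1 : E) : Qt (up E a) (up E b))) = 1 := rfl
  rw [Matrix.mul_apply, Fin.sum_univ_three]
  simp only [toMQ_apply]
  fin_cases i
  · change ((0 : E) : Qt (up E a) (up E b)) * S 0 j + ((0 : E) : Qt (up E a) (up E b)) * S 1 j +
      (((lam⁻¹ : Eˣ) : E) : Qt (up E a) (up E b)) * S 2 j = ((lam⁻¹ : Eˣ) : E) • S 2 j
    rw [h0, zero_mul, zero_mul, zero_add, zero_add, QuaternionAlgebra.coe_mul_eq_smul]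
  · change ((1 : E) : Qt (up E a) (up E b)) * S 0 j + ((0 : E) : Qt (up E a) (up E b)) * S 1 j +
      ((0 : E) : Qt (up E a) (up E b)) * S 2 j = S 0 j
    rw [h0, h1, zero_mul, zero_mul, one_mul, add_zero, add_zero]
  · change ((0 : E) : Qt (up E a) (up E b)) * S 0 j + ((1 : E) : Qt (up E a) (up E b)) * S 1 j +
      ((0 : E) : Qt (up E a) (up E b)) * S 2 j = S 1 j
    rw [h0, h1, zero_mul, zero_mul, one_mul, add_zero, zero_add]

theorem mul_uq_apply (S : MQ E a b) (i j : Fin 3) :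
    (S * (toMQ (um lam) : MQ E a b)ᴴ) i j =
      (![((lam⁻¹ : Eˣ) : E) • S i 2, S i 0, S i 1] : Fin 3 → Qt (up E a) (up E b)) j := by
  have h0 : (((0 : E) : Qt (up E a) (up E b))) = 0 := rfl
  have h1 : (((1 : E) : Qt (up E a) (up E b))) = 1 := rfl
  rw [Matrix.mul_apply, Fin.sum_univ_three]
  simp only [Matrix.conjTranspose_apply, toMQ_apply, H64.star_coe']
  fin_cases j
  · change S i 0 * ((0 : E) : Qt (up E a) (up E b)) + S i 1 * ((0 : E) : Qt (up E a) (up E b)) +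
      S i 2 * (((lam⁻¹ : Eˣ) : E) : Qt (up E a) (up E b)) = ((lam⁻¹ : Eˣ) : E) • S i 2
    rw [h0, mul_zero, mul_zero, zero_add, zero_add, ← QuaternionAlgebra.coe_commutes,
      QuaternionAlgebra.coe_mul_eq_smul]
  · change S i 0 * ((1 : E) : Qt (up E a) (up E b)) + S i 1 * ((0 : E) : Qt (up E a) (up E b)) +
      S i 2 * ((0 : E) : Qt (up E a) (up E b)) = S i 0
    rw [h0, h1, mul_zero, mul_zero, mul_one, add_zero, add_zero]
  · change S i 0 * ((0 : E) : Qt (up E a) (up E b)) + S i 1 * ((1 : E) : Qt (up E a) (up E b)) +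
      S i 2 * ((0 : E) : Qt (up E a) (up E b)) = S i 1
    rw [h0, h1, mul_zero, mul_zero, mul_one, add_zero, zero_add]

theorem mat_ph (x : AlbL E a b c) : Alb.mat (ph ρ lam x) = (lam : E) •
    ((toMQ (um lam) : MQ E a b) * (Alb.mat x).map (qmap ρ) * (toMQ (um lam) : MQ E a b)ᴴ) := by
  have hl : (lam : E) * ((lam⁻¹ : Eˣ) : E) = 1 := Units.mul_inv _
  apply Matrix.ext
  intro i j
  rw [Matrix.smul_apply, mul_uq_apply, uq_mul_apply, uq_mul_apply, uq_mul_apply]
  simp only [Matrix.map_apply]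
  fin_cases i <;> fin_cases j
  · change (((lam⁻¹ : Eˣ) * ρ x.d3 : E) : Qt (up E a) (up E b)) = (lam : E) •
      (((lam⁻¹ : Eˣ) : E) • (((lam⁻¹ : Eˣ) : E) •
        qmap ρ ((x.d3 : E) : Qt (up E a) (up E b))))
    rw [smul_smul, hl, one_smul, H64.qmap_coe, QuaternionAlgebra.coe_mul,
      QuaternionAlgebra.coe_mul_eq_smul]
  · change qmap ρ x.x2.fst = (lam : E) • (((lam⁻¹ : Eˣ) : E) • qmap ρ x.x2.fst)
    rw [smul_smul, hl, one_smul]
  · change star (qmap ρ x.x1.fst) =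
      (lam : E) • (((lam⁻¹ : Eˣ) : E) • qmap ρ (star x.x1.fst))
    rw [smul_smul, hl, one_smul, qmap_star]
  · change star (qmap ρ x.x2.fst) =
      (lam : E) • (((lam⁻¹ : Eˣ) : E) • qmap ρ (star x.x2.fst))
    rw [smul_smul, hl, one_smul, qmap_star]
  · change ((lam * ρ x.d1 : E) : Qt (up E a) (up E b)) = (lam : E) •
      qmap ρ ((x.d1 : E) : Qt (up E a) (up E b))
    rw [H64.qmap_coe, QuaternionAlgebra.coe_mul, QuaternionAlgebra.coe_mul_eq_smul]
  · rfl
  · change qmap ρ x.x1.fst = (lam : E) • (((lam⁻¹ : Eˣ) : E) • qmap ρ x.x1.fst)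
    rw [smul_smul, hl, one_smul]
  · change star ((lam : E) • qmap ρ x.x3.fst) = (lam : E) • qmap ρ (star x.x3.fst)
    rw [qmap_star, QuaternionAlgebra.star_smul]
  · change ((lam * ρ x.d2 : E) : Qt (up E a) (up E b)) = (lam : E) •
      qmap ρ ((x.d2 : E) : Qt (up E a) (up E b))
    rw [H64.qmap_coe, QuaternionAlgebra.coe_mul, QuaternionAlgebra.coe_mul_eq_smul]

theorem vec_ph (x : AlbL E a b c) : Alb.vec (ph ρ lam x) =
    ![(lam : E) • qmap ρ (Alb.vec x 2), qmap ρ (Alb.vec x 0), qmap ρ (Alb.vec x 1)] := by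
  funext i
  fin_cases i <;> rfl

theorem row_vec_ph (x : AlbL E a b c) : H64.row (Alb.vec (ph ρ lam x)) =
    (H64.row (Alb.vec x)).map (qmap ρ) * (toMQ (wm lam) : MQ E a b) := by
  have h0 : (((0 : E) : Qt (up E a) (up E b))) = 0 := rfl
  have h1 : (((1 : E) : Qt (up E a) (up E b))) = 1 := rfl
  rw [vec_ph]
  apply Matrix.ext
  intro i j
  rw [Matrix.mul_apply, Fin.sum_univ_three]
  simp only [toMQ_apply, Matrix.map_apply, H64.row, Matrix.of_apply]
  fin_cases j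
  · change (lam : E) • qmap ρ (Alb.vec x 2) =
      qmap ρ (Alb.vec x 0) * ((0 : E) : Qt (up E a) (up E b)) +
      qmap ρ (Alb.vec x 1) * ((0 : E) : Qt (up E a) (up E b)) +
      qmap ρ (Alb.vec x 2) * ((lam : E) : Qt (up E a) (up E b))
    rw [h0, mul_zero, mul_zero, zero_add, zero_add, ← QuaternionAlgebra.coe_commutes,
      QuaternionAlgebra.coe_mul_eq_smul]
  · change qmap ρ (Alb.vec x 0) =
      qmap ρ (Alb.vec x 0) * ((1 : E) : Qt (up E a) (up E b)) +
      qmap ρ (Alb.vec x 1) * ((0 : E) : Qt (up E a) (up E b)) +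
      qmap ρ (Alb.vec x 2) * ((0 : E) : Qt (up E a) (up E b))
    rw [h0, h1, mul_zero, mul_zero, mul_one, add_zero, add_zero]
  · change qmap ρ (Alb.vec x 1) =
      qmap ρ (Alb.vec x 0) * ((0 : E) : Qt (up E a) (up E b)) +
      qmap ρ (Alb.vec x 1) * ((1 : E) : Qt (up E a) (up E b)) +
      qmap ρ (Alb.vec x 2) * ((0 : E) : Qt (up E a) (up E b))
    rw [h0, h1, mul_zero, mul_zero, mul_one, add_zero, zero_add]

theorem InD.inv {m : (MQ E a b)ˣ} (hm : InD ρ lam (m : MQ E a b)) :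
    InD ρ lam ((m⁻¹ : (MQ E a b)ˣ) : MQ E a b) := by
  have h1 : m * uU lam = uU lam * H64.umap ρ m := Units.ext hm
  have h2 : m⁻¹ * uU lam = uU lam * H64.umap ρ m⁻¹ := by
    rw [map_inv, inv_mul_eq_iff_eq_mul, ← mul_assoc, h1, mul_assoc, mul_inv_cancel, mul_one]
  exact congrArg Units.val h2

theorem InD.mul {m m' : MQ E a b} (hm : InD ρ lam m) (hm' : InD ρ lam m') :
    InD ρ lam (m * m') := by
  rw [InD] at *
  rw [H64.map_mul_qmap, Matrix.mul_assoc, hm', ← Matrix.mul_assoc, hm, Matrix.mul_assoc]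

theorem InD.comm_wq {m : MQ E a b} (hm : InD ρ lam m) :
    m.map (qmap ρ) * toMQ (wm lam) = toMQ (wm lam) * m := by
  have h : m * toMQ (um lam) = toMQ (um lam) * m.map (qmap ρ) := hm
  calc m.map (qmap ρ) * toMQ (wm lam)
      = (toMQ (wm lam) * toMQ (um lam)) * m.map (qmap ρ) * toMQ (wm lam) := by
        rw [wq_mul_uq, Matrix.one_mul]
    _ = toMQ (wm lam) * (toMQ (um lam) * m.map (qmap ρ)) * toMQ (wm lam) := by
        rw [Matrix.mul_assoc (toMQ (wm lam))]
    _ = toMQ (wm lam) * m * (toMQ (um lam) * toMQ (wm lam)) := by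
        rw [← h]; simp only [Matrix.mul_assoc]
    _ = toMQ (wm lam) * m := by rw [uq_mul_wq, Matrix.mul_one]

/-- The maps `act m κ` commute with `ph`. -/
theorem ph_act [NeZero (2 : E)] {m : (MQ E a b)ˣ} (hm : InD ρ lam (m : MQ E a b))
    {κ : Qt (up E a) (up E b)} (hκ : qmap ρ κ = κ) (x : AlbL E a b c) :
    ph ρ lam (Alb.act m κ x) = Alb.act m κ (ph ρ lam x) := by
  apply H64.ext_mat_vec
  · rw [mat_ph, mat_act, mat_act, mat_ph, H64.map_mul_qmap, H64.map_mul_qmap,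
      H64.map_qmap_conjTranspose, Matrix.mul_smul, Matrix.smul_mul]
    congr 1
    have h1 : (toMQ (um lam) : MQ E a b) * (m : MQ E a b).map (qmap ρ) =
      (m : MQ E a b) * toMQ (um lam) := hm.symm
    have h2 := congrArg Matrix.conjTranspose h1
    rw [Matrix.conjTranspose_mul, Matrix.conjTranspose_mul] at h2
    calc _ = ((toMQ (um lam) : MQ E a b) * (m : MQ E a b).map (qmap ρ)) *
          (Alb.mat x).map (qmap ρ) * (((m : MQ E a b).map (qmap ρ))ᴴ *
            (toMQ (um lam) : MQ E a b)ᴴ) := by simp only [Matrix.mul_assoc]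
      _ = _ := by rw [h1, h2]; simp only [Matrix.mul_assoc]
  · rw [row_vec_ph, H64.row_vec_act, H64.row_vec_act, row_vec_ph, H64.map_mul_qmap,
      H64.map_mul_qmap, H64.q1_map, hκ, Matrix.mul_assoc, Matrix.mul_assoc, hm.inv.comm_wq]
    simp only [Matrix.mul_assoc]

theorem ph_add (x y : AlbL E a b c) : ph ρ lam (x + y) = ph ρ lam x + ph ρ lam y := by
  apply Alb.ext <;> simp [ph, omap_add, mul_add]

theorem ph_smul (t : E) (x : AlbL E a b c) : ph ρ lam (t • x) = ρ t • ph ρ lam x := by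
  apply Alb.ext <;> simp [ph, omap_smul, mul_left_comm, smul_comm (ρ t)]

/-- The maps `act m κ` are similitudes of the hermitian form. -/
theorem her_act [NeZero (2 : E)] {m : (MQ E a b)ˣ} {μ : E} (hμ : μ ≠ 0)
    (hm : IsUn σ g μ (m : MQ E a b)) {κ : Qt (up E a) (up E b)}
    (hκ : star (qmap σ κ) * κ = ((μ ^ 3 : E) : Qt (up E a) (up E b))) (x y : AlbL E a b c) :
    her σ g (Alb.act m κ x) (Alb.act m κ y) = μ ^ 2 * her σ g x y := by
  set g' : Fin 3 → Eˣ := fun i => Units.mk0 μ hμ * g i with hg'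
  have h : ((H64.umap σ m : (MQ E a b)ˣ) : MQ E a b)ᴴ * dg (up E a) (up E b) g * (m : MQ E a b) =
      dg (up E a) (up E b) g' := by
    rw [H64.umap_val]
    refine hm.trans ?_
    rw [dg, dg, ← Matrix.diagonal_smul]
    congr 1
    funext i
    simp only [hg', Pi.smul_apply, Units.val_mul, Units.val_mk0, map_mul, Algebra.smul_def]
  have hr : (g 0 * g 1 * g 2 : E) * μ ^ 3 = g' 0 * g' 1 * g' 2 := by
    simp only [hg', Units.val_mul, Units.val_mk0]
    ring
  rw [her, H64.amap_act two_ne_zero, H64.tf_act two_ne_zero h hκ hr, her]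
  have e : Alb.wt g' x = μ ^ 2 • Alb.wt g x := by
    ext1 <;> simp only [Alb.wt, hg', Units.val_mul, Units.val_mk0, Alb.d1_smul, Alb.d2_smul,
      Alb.d3_smul, Alb.x1_smul, Alb.x2_smul, Alb.x3_smul, smul_smul] <;> ring_nf
  rw [e, Alb.tf_smul_left]

end gen

section B

variable {k E : Type} [Field k] [NumberField k] [Field E] [NumberField E] [Algebra k E]
  {ρ σ : E ≃ₐ[k] E} {lam : Eˣ} {g : Fin 3 → Eˣ} {al s : E} {a b c : kˣ}

omit [NumberField k] [NumberField E] in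
theorem Hyp.alal (H : Hyp ρ σ lam g al s a b c) : al * al = (up E a : E) := by
  rw [← pow_two]
  exact H.al2

omit [NumberField k] in
theorem cub_act (H : Hyp ρ σ lam g al s a b c) (m : (MQ E a b)ˣ) {κ : Qt (up E a) (up E b)}
    (hκ : nrd κ = nu (m : MQ E a b)) (x : AlbL E a b c) :
    Alb.cub (Alb.act m κ x) = nu (m : MQ E a b) * Alb.cub x :=
  H68.cub_actS (H68.spq two_ne_zero H.alal) two_ne_zero m hκ x

omit [NumberField k] in
theorem nu_mul (H : Hyp ρ σ lam g al s a b c) (A B : MQ E a b) : nu (A * B) = nu A * nu B :=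
  H68.nu_mulS (H68.spq two_ne_zero H.alal) two_ne_zero A B

omit [NumberField k] in
theorem ph_act_qup (_ : Hyp ρ σ lam g al s a b c) {m : (MQ E a b)ˣ}
    (hm : InD ρ lam (m : MQ E a b)) (κ : Qt a b) (x : AlbL E a b c) :
    ph ρ lam (Alb.act m (qup E κ) x) = Alb.act m (qup E κ) (ph ρ lam x) :=
  ph_act hm (qmap_qup ρ κ) x

omit [NumberField k] in
/-- The similitudes of `D ⊗ Q` give elements of the group. -/
theorem exists_sim (H : Hyp ρ σ lam g al s a b c) {m : (MQ E a b)ˣ}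
    (hm : InD ρ lam (m : MQ E a b)) {μ : k} (hμ : μ ≠ 0)
    (hu : IsUn σ g (algebraMap k E μ) (m : MQ E a b))
    (hn : nu (m : MQ E a b) = algebraMap k E μ ^ 3) {κ : Qt a b} (hκ : nrd κ = μ ^ 3) :
    ∃ φ ∈ GO ρ σ lam g a b c, ∀ x, φ x = (algebraMap k E μ)⁻¹ • Alb.act m (qup E κ) x := by
  have hμE : algebraMap k E μ ≠ 0 := (map_ne_zero _).mpr hμ
  have hκ0 : nrd κ ≠ 0 := by rw [hκ]; exact pow_ne_zero 3 hμ
  have hκE : nrd (qup E κ) = algebraMap k E μ ^ 3 := by rw [nrd_qup, hκ, map_pow]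
  obtain ⟨u, hu'⟩ := H64.isUnit_of_nrd (x := qup E κ) (by rw [hκE]; exact pow_ne_zero 3 hμE)
  refine ⟨(LinearEquiv.smulOfNeZero E _ (algebraMap k E μ)⁻¹ (inv_ne_zero hμE) :
    AlbL E a b c ≃ₗ[E] AlbL E a b c) * H64.actL two_ne_zero m u, ⟨fun x => ?_, fun x => ?_,
    fun x y => ?_⟩, fun x => ?_⟩
  · rw [LinearEquiv.mul_apply, LinearEquiv.smulOfNeZero_apply, H64.actL_apply, hu', Alb.cub_smul,
      cub_act H m (by rw [hκE, hn]), hn, ← mul_assoc, ← mul_pow, inv_mul_cancel₀ hμE, one_pow,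
      one_mul]
  · rw [LinearEquiv.mul_apply, LinearEquiv.mul_apply, LinearEquiv.smulOfNeZero_apply,
      LinearEquiv.smulOfNeZero_apply, H64.actL_apply, H64.actL_apply, hu', ph_smul,
      ph_act_qup H hm, map_inv₀, AlgEquiv.commutes]
  · rw [LinearEquiv.mul_apply, LinearEquiv.mul_apply, LinearEquiv.smulOfNeZero_apply,
      LinearEquiv.smulOfNeZero_apply, H64.actL_apply, H64.actL_apply, hu']
    have h1 := her_act (σ := σ) (g := g) hμE hu (κ := qup E κ) (by
      rw [qmap_qup, H64.star_mul_qt, hκE]) x y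
    have h2 : ∀ (t : E) (x y : AlbL E a b c), her σ g (t • x) (t • y) = t * σ t * her σ g x y := by
      intro t x y
      have e : Alb.wt g (t • x) = t • Alb.wt g x := by
        apply Alb.ext <;> simp [Alb.wt, mul_left_comm, smul_comm t]
      rw [her, her, e, Alb.tf_smul_left, amap_smul, Alb.tf_smul_right, mul_assoc]
    rw [h2, h1, map_inv₀, AlgEquiv.commutes]
    field_simp
  · rw [LinearEquiv.mul_apply, LinearEquiv.smulOfNeZero_apply, H64.actL_apply, hu']

omit [NumberField k] in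
theorem exists_act (H : Hyp ρ σ lam g al s a b c) {m : (MQ E a b)ˣ}
    (hm : InD ρ lam (m : MQ E a b)) (hu : IsUn σ g 1 (m : MQ E a b))
    (hn : nu (m : MQ E a b) = 1) :
    ∃ φ ∈ GO ρ σ lam g a b c, ∀ x, φ x = Alb.act m 1 x := by
  obtain ⟨φ, hφ, h⟩ := exists_sim H hm (μ := 1) one_ne_zero (by rwa [map_one])
    (by rw [hn, map_one, one_pow]) (κ := 1) (by rw [nrd_one, one_pow])
  refine ⟨φ, hφ, fun x => ?_⟩
  rw [h, map_one, inv_one, one_smul, qup_one]

end B

end Vale.Agent.P011.E6O
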