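import Vale.Agent.P011.E6O.H24.Bas
import Vale.Agent.P011.E6O.Defs2

/-!
Block E6O: the inner automorphisms given by a quaternion.
-/

open NumberField Matrix

namespace Vale.Agent.P011.E6O

open Vale.Agent.P011.MPQ Vale.Agent.P011.D4 Vale.Agent.P011.D4.Oct Vale.Agent.P011.E6

section conj

variable {F : Type} [Field F] {a b c : Fˣ}

theorem star_conj (q : (Qt a b)ˣ) (y : Qt a b) :
    star ((q : Qt a b) * y * ((q⁻¹ : (Qt a b)ˣ) : Qt a b)) =
      (q : Qt a b) * star y * ((q⁻¹ : (Qt a b)ˣ) : Qt a b) := by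
  have h1 : star ((q : (Qt a b)ˣ) : Qt a b) * (q : Qt a b) =
      ((nrd (q : Qt a b) : F) : Qt a b) := H64.star_mul_qt _
  have hB : star ((q : (Qt a b)ˣ) : Qt a b) =
      (nrd (q : Qt a b) : F) • ((q⁻¹ : (Qt a b)ˣ) : Qt a b) := by
    rw [← QuaternionAlgebra.coe_mul_eq_smul, ← h1, mul_assoc, Units.mul_inv, mul_one]
  have hn : nrd (q : Qt a b) ≠ 0 := by
    intro h
    rw [h, zero_smul] at hB
    have h2 := h1
    rw [hB, zero_mul, h] at h2
    have h3 : ((q : Qt a b)) * star ((q⁻¹ : (Qt a b)ˣ) : Qt a b) = 0 := by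
      have h4 : star (((q⁻¹ : (Qt a b)ˣ) : Qt a b) * (q : Qt a b)) = 1 := by
        rw [Units.inv_mul, star_one]
      rw [star_mul, hB, zero_mul] at h4
      exact absurd h4 zero_ne_one
    have h4 : star (((q⁻¹ : (Qt a b)ˣ) : Qt a b) * (q : Qt a b)) = 1 := by
      rw [Units.inv_mul, star_one]
    rw [star_mul, hB, zero_mul] at h4
    exact zero_ne_one h4
  have hA : star ((q⁻¹ : (Qt a b)ˣ) : Qt a b) = (nrd (q : Qt a b) : F)⁻¹ • (q : Qt a b) := by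
    have h4 : star ((q⁻¹ : (Qt a b)ˣ) : Qt a b) * star ((q : (Qt a b)ˣ) : Qt a b) = 1 := by
      rw [← star_mul, Units.mul_inv, star_one]
    rw [hB, mul_smul_comm] at h4
    have h5 := congrArg (fun z => (nrd (q : Qt a b) : F)⁻¹ • (z * (q : Qt a b))) h4
    simp only [smul_mul_assoc, mul_assoc, Units.inv_mul, mul_one, one_mul, smul_smul,
      inv_mul_cancel₀ hn, one_smul] at h5
    exact h5
  rw [star_mul, star_mul, hB, hA]
  simp only [smul_mul_assoc, mul_smul_comm, smul_smul, mul_inv_cancel₀ hn, one_smul, mul_assoc]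

/-- Conjugation by a quaternion, as a linear map. -/
def conjL (c : Fˣ) (q : (Qt a b)ˣ) : Oct a b c ≃ₗ[F] Oct a b c where
  toFun x := ⟨(q : Qt a b) * x.fst * ((q⁻¹ : (Qt a b)ˣ) : Qt a b),
    (q : Qt a b) * x.snd * ((q⁻¹ : (Qt a b)ˣ) : Qt a b)⟩
  invFun x := ⟨((q⁻¹ : (Qt a b)ˣ) : Qt a b) * x.fst * (q : Qt a b),
    ((q⁻¹ : (Qt a b)ˣ) : Qt a b) * x.snd * (q : Qt a b)⟩
  left_inv x := by
    apply Oct.ext
    · change ((q⁻¹ : (Qt a b)ˣ) : Qt a b) * ((q : Qt a b) * x.fst *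
        ((q⁻¹ : (Qt a b)ˣ) : Qt a b)) * (q : Qt a b) = x.fst
      rw [mul_assoc, mul_assoc, Units.inv_mul, mul_one, ← mul_assoc, Units.inv_mul, one_mul]
    · change ((q⁻¹ : (Qt a b)ˣ) : Qt a b) * ((q : Qt a b) * x.snd *
        ((q⁻¹ : (Qt a b)ˣ) : Qt a b)) * (q : Qt a b) = x.snd
      rw [mul_assoc, mul_assoc, Units.inv_mul, mul_one, ← mul_assoc, Units.inv_mul, one_mul]
  right_inv x := by
    apply Oct.ext
    · change (q : Qt a b) * (((q⁻¹ : (Qt a b)ˣ) : Qt a b) * x.fst * (q : Qt a b)) *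
        ((q⁻¹ : (Qt a b)ˣ) : Qt a b) = x.fst
      rw [mul_assoc, mul_assoc, Units.mul_inv, mul_one, ← mul_assoc, Units.mul_inv, one_mul]
    · change (q : Qt a b) * (((q⁻¹ : (Qt a b)ˣ) : Qt a b) * x.snd * (q : Qt a b)) *
        ((q⁻¹ : (Qt a b)ˣ) : Qt a b) = x.snd
      rw [mul_assoc, mul_assoc, Units.mul_inv, mul_one, ← mul_assoc, Units.mul_inv, one_mul]
  map_add' x y := by
    apply Oct.ext
    · change (q : Qt a b) * (x.fst + y.fst) * ((q⁻¹ : (Qt a b)ˣ) : Qt a b) = _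
      rw [mul_add, add_mul]
      rfl
    · change (q : Qt a b) * (x.snd + y.snd) * ((q⁻¹ : (Qt a b)ˣ) : Qt a b) = _
      rw [mul_add, add_mul]
      rfl
  map_smul' t x := by
    apply Oct.ext
    · change (q : Qt a b) * (t • x.fst) * ((q⁻¹ : (Qt a b)ˣ) : Qt a b) = _
      rw [mul_smul_comm, smul_mul_assoc]
      rfl
    · change (q : Qt a b) * (t • x.snd) * ((q⁻¹ : (Qt a b)ˣ) : Qt a b) = _
      rw [mul_smul_comm, smul_mul_assoc]
      rfl

theorem conjL_apply (q : (Qt a b)ˣ) (x : Oct a b c) : conjL c q x =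
    ⟨(q : Qt a b) * x.fst * ((q⁻¹ : (Qt a b)ˣ) : Qt a b),
      (q : Qt a b) * x.snd * ((q⁻¹ : (Qt a b)ˣ) : Qt a b)⟩ := rfl

theorem conj_conj (q : (Qt a b)ˣ) (x y : Qt a b) :
    ((q : Qt a b) * x * ((q⁻¹ : (Qt a b)ˣ) : Qt a b)) *
      ((q : Qt a b) * y * ((q⁻¹ : (Qt a b)ˣ) : Qt a b)) =
      (q : Qt a b) * (x * y) * ((q⁻¹ : (Qt a b)ˣ) : Qt a b) := by
  calc _ = (q : Qt a b) * x * (((q⁻¹ : (Qt a b)ˣ) : Qt a b) * (q : Qt a b)) * y *
        ((q⁻¹ : (Qt a b)ˣ) : Qt a b) := by simp only [mul_assoc]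
    _ = _ := by rw [Units.inv_mul]; simp only [mul_assoc, one_mul]

theorem conjL_mul (q : (Qt a b)ˣ) (x y : Oct a b c) :
    conjL c q (x * y) = conjL c q x * conjL c q y := by
  apply Oct.ext
  · change (q : Qt a b) * (x.fst * y.fst + (c : F) • (star y.snd * x.snd)) *
        ((q⁻¹ : (Qt a b)ˣ) : Qt a b) =
      ((q : Qt a b) * x.fst * ((q⁻¹ : (Qt a b)ˣ) : Qt a b)) *
        ((q : Qt a b) * y.fst * ((q⁻¹ : (Qt a b)ˣ) : Qt a b)) +
      (c : F) • (star ((q : Qt a b) * y.snd * ((q⁻¹ : (Qt a b)ˣ) : Qt a b)) *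
        ((q : Qt a b) * x.snd * ((q⁻¹ : (Qt a b)ˣ) : Qt a b)))
    rw [star_conj, conj_conj, conj_conj, mul_add, add_mul, mul_smul_comm, smul_mul_assoc]
  · change (q : Qt a b) * (y.snd * x.fst + x.snd * star y.fst) *
        ((q⁻¹ : (Qt a b)ˣ) : Qt a b) =
      ((q : Qt a b) * y.snd * ((q⁻¹ : (Qt a b)ˣ) : Qt a b)) *
        ((q : Qt a b) * x.fst * ((q⁻¹ : (Qt a b)ˣ) : Qt a b)) +
      ((q : Qt a b) * x.snd * ((q⁻¹ : (Qt a b)ˣ) : Qt a b)) *
        star ((q : Qt a b) * y.fst * ((q⁻¹ : (Qt a b)ˣ) : Qt a b))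
    rw [star_conj, conj_conj, conj_conj, mul_add, add_mul]

/-- Conjugation by a quaternion, as an automorphism of the octonion algebra. -/
def conjC (c : Fˣ) (q : (Qt a b)ˣ) : AutC a b c := ⟨conjL c q, conjL_mul q⟩

end conj

section up

variable {k E : Type} [Field k] [Field E] [Algebra k E] {a b c : kˣ}

/-- A unit quaternion over the extension field. -/
def qupU (E : Type) [Field E] [Algebra k E] (q : (Qt a b)ˣ) : (Qt (up E a) (up E b))ˣ :=
  ⟨qup E q, qup E ((q⁻¹ : (Qt a b)ˣ) : Qt a b), by rw [← qup_mul, Units.mul_inv, qup_one],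
    by rw [← qup_mul, Units.inv_mul, qup_one]⟩

/-- Conjugation by a quaternion, as a linear map of the space of hermitian matrices. -/
def conjE (E : Type) [Field E] [Algebra k E] (c : kˣ) (q : (Qt a b)ˣ) :
    AlbL E a b c ≃ₗ[E] AlbL E a b c :=
  Alb.mapE (conjL (up E c) (qupU E q))

theorem conjE_apply (q : (Qt a b)ˣ) (x : AlbL E a b c) : conjE E c q x =
    ⟨x.d1, x.d2, x.d3,
      ⟨qup E q * x.x1.fst * qup E ((q⁻¹ : (Qt a b)ˣ) : Qt a b),
        qup E q * x.x1.snd * qup E ((q⁻¹ : (Qt a b)ˣ) : Qt a b)⟩,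
      ⟨qup E q * x.x2.fst * qup E ((q⁻¹ : (Qt a b)ˣ) : Qt a b),
        qup E q * x.x2.snd * qup E ((q⁻¹ : (Qt a b)ˣ) : Qt a b)⟩,
      ⟨qup E q * x.x3.fst * qup E ((q⁻¹ : (Qt a b)ˣ) : Qt a b),
        qup E q * x.x3.snd * qup E ((q⁻¹ : (Qt a b)ˣ) : Qt a b)⟩⟩ := rfl

theorem conjE_aup (q : (Qt a b)ˣ) (x : Alb a b c) :
    conjE E c q (aup E x) = aup E (Alb.omapA (conjC c q).1 x) := by
  have h : ∀ y : Oct a b c, conjL (up E c) (qupU E q) (oup E y) = oup E (conjL c q y) := by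
    intro y
    apply Oct.ext
    · change qup E q * qup E y.fst * qup E ((q⁻¹ : (Qt a b)ˣ) : Qt a b) =
        qup E ((q : Qt a b) * y.fst * ((q⁻¹ : (Qt a b)ˣ) : Qt a b))
      rw [qup_mul, qup_mul]
    · change qup E q * qup E y.snd * qup E ((q⁻¹ : (Qt a b)ˣ) : Qt a b) =
        qup E ((q : Qt a b) * y.snd * ((q⁻¹ : (Qt a b)ˣ) : Qt a b))
      rw [qup_mul, qup_mul]
  apply Alb.ext
  · rfl
  · rfl
  · rfl
  · exact h _
  · exact h _
  · exact h _

theorem mem_Apt {x : OctL E a b c} {y : AlbL E a b c} :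
    y ∈ Apt x ↔ ∃ r : Fin 3 → E, y = ⟨0, 0, 0, r 0 • x, r 1 • x, r 2 • x⟩ := Iff.rfl

theorem mapE_Apt {a' b' c' : kˣ} (f : OctL E a' b' c' ≃ₗ[E] OctL E a b c)
    (x : OctL E a' b' c') : (Apt x).map (Alb.mapE f : AlbL E a' b' c' →ₗ[E] AlbL E a b c) =
      Apt (f x) := by
  ext y
  rw [Submodule.mem_map, mem_Apt]
  constructor
  · rintro ⟨z, ⟨r, rfl⟩, rfl⟩
    refine ⟨r, ?_⟩
    apply Alb.ext <;> first | rfl | exact map_smul f _ _
  · rintro ⟨r, rfl⟩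
    refine ⟨_, ⟨r, rfl⟩, ?_⟩
    apply Alb.ext <;> first | rfl | exact map_smul f _ _

theorem Pw_snd (al : E) (q : Qt a b) : Pw al (⟨0, q⟩ : Oct a b c) =
    Apt (⟨0, qup E q * ep al⟩ : OctL E a b c) := by
  rw [Pw]
  congr 1
  apply Oct.ext
  · change ep al * qup E (0 : Qt a b) + ((up E c : Eˣ) : E) • (star (qup E q) * 0) = 0
    rw [mul_zero, smul_zero, add_zero, qup_zero, mul_zero]
  · change qup E q * ep al + 0 * star (qup E (0 : Qt a b)) = qup E q * ep al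
    rw [zero_mul, add_zero]

theorem Pm_snd (al : E) (q : Qt a b) : Pm al (⟨0, q⟩ : Oct a b c) =
    Apt (⟨0, qup E q * em al⟩ : OctL E a b c) := by
  rw [Pm]
  congr 1
  apply Oct.ext
  · change em al * qup E (0 : Qt a b) + ((up E c : Eˣ) : E) • (star (qup E q) * 0) = 0
    rw [mul_zero, smul_zero, add_zero, qup_zero, mul_zero]
  · change qup E q * em al + 0 * star (qup E (0 : Qt a b)) = qup E q * em al
    rw [zero_mul, add_zero]

/-- Conjugation by `κ` carries `(0, e κ)` to `(0, κ e)`. -/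
theorem conj_Pw (al : E) (q : (Qt a b)ˣ) :
    (Apt (⟨0, ep al * qup E q⟩ : OctL E a b c)).map
      (conjE E c q : AlbL E a b c →ₗ[E] AlbL E a b c) = Pw al (⟨0, q⟩ : Oct a b c) := by
  rw [Pw_snd, conjE, mapE_Apt]
  congr 1
  rw [conjL_apply]
  apply Oct.ext
  · change qup E q * 0 * qup E ((q⁻¹ : (Qt a b)ˣ) : Qt a b) = 0
    rw [mul_zero, zero_mul]
  · change qup E q * (ep al * qup E q) * qup E ((q⁻¹ : (Qt a b)ˣ) : Qt a b) = qup E q * ep al
    rw [mul_assoc, mul_assoc, ← qup_mul, Units.mul_inv, qup_one, mul_one]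

theorem conj_Pm (al : E) (q : (Qt a b)ˣ) :
    (Apt (⟨0, em al * qup E q⟩ : OctL E a b c)).map
      (conjE E c q : AlbL E a b c →ₗ[E] AlbL E a b c) = Pm al (⟨0, q⟩ : Oct a b c) := by
  rw [Pm_snd, conjE, mapE_Apt]
  congr 1
  rw [conjL_apply]
  apply Oct.ext
  · change qup E q * 0 * qup E ((q⁻¹ : (Qt a b)ˣ) : Qt a b) = 0
    rw [mul_zero, zero_mul]
  · change qup E q * (em al * qup E q) * qup E ((q⁻¹ : (Qt a b)ˣ) : Qt a b) = qup E q * em al
    rw [mul_assoc, mul_assoc, ← qup_mul, Units.mul_inv, qup_one, mul_one]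

/-- The octonions `(0, q)` are orthogonal to `1` and `i`. -/
theorem perp_snd {q : Qt a b} (hq : q ≠ 0) : Perp (⟨0, q⟩ : Oct a b c) where
  ne h := hq (congrArg Oct.snd h)
  tr := by
    apply Oct.ext
    · change star (0 : Qt a b) = -0
      rw [star_zero, neg_zero]
    · rfl
  i := by
    change (((⟨0, 1, 0, 0⟩ : Qt a b) * star (0 : Qt a b)) +
      (c : k) • (star (-q) * (0 : Qt a b))).re = 0
    rw [star_zero, mul_zero, mul_zero, smul_zero, add_zero]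
    rfl

end up

end Vale.Agent.P011.E6O
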